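import Vale.Agent.P017.R4.Defs
import Vale.Agent.P017.R3.H68.B1

/-!
# P017, row R4-C1: character sums over boxes with the symbol (2/p) (StmtChar8)
-/

open Finset Filter

namespace Vale.Agent.P017.R4.H68

open ArithmeticFunction (vonMangoldt)
open Vale.Agent.P017.R3
open Vale.Agent.P017.R3.H68 (Bx_log PP psi_int nonprime_le grow exp_L sqrt_L two_rpow_le block mem_Bx)
open Vale.Agent.P017.R2.H217 (SW jac_abs_le complete_zero)
open Vale.Agent.P017.R2.H985 (StmtPS1 StmtPS2 StmtBL)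

theorem th8_split {l : ℝ} (hl1 : 1 < l) (hl2 : l ≤ 2) (j e c : ℕ) :
    |Th8 l j e c| ≤
    |∑ p ∈ (Bx l j e).filter (fun p => p ∈ Ico (2 ^ Nat.log 2 ⌊l ^ j⌋₊)
      (2 ^ (Nat.log 2 ⌊l ^ j⌋₊ + 1))),
        (Real.log p * (jacobiSym 2 p : ℝ)) * (jacobiSym p c : ℝ)| +
    |∑ p ∈ (Bx l j e).filter (fun p => p ∈ Ico (2 ^ (Nat.log 2 ⌊l ^ j⌋₊ + 1))
      (2 ^ (Nat.log 2 ⌊l ^ j⌋₊ + 1 + 1))),
        (Real.log p * (jacobiSym 2 p : ℝ)) * (jacobiSym p c : ℝ)| := by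
  have e1 : (Bx l j e).filter (fun p => p ∈ Ico (2 ^ Nat.log 2 ⌊l ^ j⌋₊)
      (2 ^ (Nat.log 2 ⌊l ^ j⌋₊ + 1))) =
      (Bx l j e).filter (fun p => p < 2 ^ (Nat.log 2 ⌊l ^ j⌋₊ + 1)) := by
    refine filter_congr fun p hp => ?_
    obtain ⟨a1, a2⟩ := Bx_log hl1 hl2 hp
    rw [mem_Ico]
    exact ⟨fun h => h.2, fun h => ⟨a1, h⟩⟩
  have e2 : (Bx l j e).filter (fun p => p ∈ Ico (2 ^ (Nat.log 2 ⌊l ^ j⌋₊ + 1))
      (2 ^ (Nat.log 2 ⌊l ^ j⌋₊ + 1 + 1))) =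
      (Bx l j e).filter (fun p => ¬ p < 2 ^ (Nat.log 2 ⌊l ^ j⌋₊ + 1)) := by
    refine filter_congr fun p hp => ?_
    obtain ⟨a1, a2⟩ := Bx_log hl1 hl2 hp
    rw [mem_Ico]
    exact ⟨fun h => not_lt.2 h.1, fun h => ⟨not_lt.1 h, a2⟩⟩
  have e3 : Th8 l j e c = ∑ p ∈ Bx l j e,
      (Real.log p * (jacobiSym 2 p : ℝ)) * (jacobiSym p c : ℝ) := by
    rw [Th8]
    exact sum_congr rfl fun p _ => by ring
  rw [e1, e2, e3, ← sum_filter_add_sum_filter_not (Bx l j e)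
    (fun p => p < 2 ^ (Nat.log 2 ⌊l ^ j⌋₊ + 1))]
  exact abs_add_le _ _

theorem large_sum8 {C : ℝ} (hC : 0 < C)
    (hblk : ∀ (S : Finset ℕ), (∀ p ∈ S, Odd p) → ∀ (w : ℕ → ℝ) (Λ : ℝ), 0 < Λ →
      (∀ p ∈ S, |w p| ≤ Λ) →
      ∀ i k : ℕ, ∑ c ∈ (Ico (2 ^ i) (2 ^ (i + 1))).filter (fun c => Squarefree c ∧ Odd c),
      |∑ p ∈ S.filter (fun p => p ∈ Ico (2 ^ k) (2 ^ (k + 1))), w p * (jacobiSym p c : ℝ)| / c ≤
      C * Λ * 2 ^ k * (2 : ℝ) ^ (-(((min i k : ℕ) : ℝ) / 6)) * (((max i k : ℕ) : ℝ) + 1) ^ 4)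
    {l : ℝ} (hl1 : 1 < l) (hl2 : l ≤ 2) (A j e i₀ : ℕ) (hj : 1 ≤ j) (he : e = 1 ∨ e = 3)
    {Λ R : ℝ} (hΛ : 0 < Λ) (hΛ' : ∀ p ∈ Bx l j e, |Real.log p * (jacobiSym 2 p : ℝ)| ≤ Λ)
    (hR : ∀ i k : ℕ, i₀ ≤ i → Nat.log 2 ⌊l ^ j⌋₊ ≤ k →
      (2 : ℝ) ^ (-(((min i k : ℕ) : ℝ) / 6)) ≤ R) :
    ∑ c ∈ ((Icc 1 ⌊l ^ (A * j)⌋₊).filter (fun c => Squarefree c ∧ Odd c)).filter
      (fun c => ¬ c < 2 ^ i₀), |Th8 l j e c| / c ≤
      ((A + 1) * j) * (2 * (C * Λ * (2 * l ^ j) * R * ((A + 3) * j) ^ 4)) := by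
  have hlj : 0 < l ^ j := by positivity
  have hM : 1 ≤ ⌊l ^ j⌋₊ := by
    rw [Nat.one_le_floor_iff]
    exact one_le_pow₀ hl1.le
  have hjR : (1 : ℝ) ≤ j := by exact_mod_cast hj
  set k₀ := Nat.log 2 ⌊l ^ j⌋₊ with hk₀
  have hk2 : (2 : ℝ) ^ k₀ ≤ l ^ j := by
    have h1 : 2 ^ k₀ ≤ ⌊l ^ j⌋₊ := Nat.pow_log_le_self 2 (by omega)
    have h2 : ((2 ^ k₀ : ℕ) : ℝ) ≤ (⌊l ^ j⌋₊ : ℕ) := by exact_mod_cast h1
    push_cast at h2
    exact h2.trans (Nat.floor_le hlj.le)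
  have hk3 : k₀ ≤ j := by
    have h1 : (2 : ℝ) ^ k₀ ≤ 2 ^ j := hk2.trans (pow_le_pow_left₀ (by linarith) hl2 j)
    exact (pow_le_pow_iff_right₀ (by norm_num : (1 : ℝ) < 2)).1 h1
  have hR0 : 0 ≤ R := by
    refine le_trans ?_ (hR i₀ k₀ le_rfl le_rfl)
    positivity
  have hodd : ∀ p ∈ Bx l j e, Odd p := by
    intro p hp
    obtain ⟨_, _, _, h4⟩ := mem_Bx hp
    rw [Nat.odd_iff]
    omega
  have hone : ∀ i k : ℕ, i₀ ≤ i → i ≤ A * j → k₀ ≤ k → k ≤ k₀ + 1 →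
      ∑ c ∈ (Ico (2 ^ i) (2 ^ (i + 1))).filter (fun c => Squarefree c ∧ Odd c),
      |∑ p ∈ (Bx l j e).filter (fun p => p ∈ Ico (2 ^ k) (2 ^ (k + 1))),
        (Real.log p * (jacobiSym 2 p : ℝ)) * (jacobiSym p c : ℝ)| / c ≤
      C * Λ * (2 * l ^ j) * R * ((A + 3) * j) ^ 4 := by
    intro i k hi hi' hk hk'
    refine (hblk (Bx l j e) hodd (fun p => Real.log p * (jacobiSym 2 p : ℝ)) Λ hΛ hΛ' i k).trans ?_
    have h1 : (2 : ℝ) ^ k ≤ 2 * l ^ j := by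
      calc (2 : ℝ) ^ k ≤ 2 ^ (k₀ + 1) := pow_le_pow_right₀ (by norm_num) hk'
        _ = 2 * 2 ^ k₀ := by ring
        _ ≤ 2 * l ^ j := by linarith
    have h2 := hR i k hi hk
    have h3 : (((max i k : ℕ) : ℝ) + 1) ≤ (A + 3) * j := by
      have h4 : max i k + 1 ≤ (A + 3) * j := by
        have : max i k ≤ A * j + j + 1 := by
          apply max_le <;> nlinarith
        nlinarith
      exact_mod_cast h4
    gcongr
  have hf : ∀ i : ℕ, i₀ ≤ i → i ≤ A * j →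
      ∑ c ∈ (Ico (2 ^ i) (2 ^ (i + 1))).filter (fun c => Squarefree c ∧ Odd c),
        |Th8 l j e c| / c ≤ 2 * (C * Λ * (2 * l ^ j) * R * ((A + 3) * j) ^ 4) := by
    intro i hi hi'
    have h1 := hone i k₀ hi hi' le_rfl (Nat.le_succ _)
    have h2 := hone i (k₀ + 1) hi hi' (Nat.le_succ _) le_rfl
    rw [two_mul]
    refine le_trans ?_ (add_le_add h1 h2)
    rw [← sum_add_distrib]
    refine sum_le_sum fun c _ => ?_
    rw [← add_div]
    exact div_le_div_of_nonneg_right (th8_split hl1 hl2 j e c) (by positivity)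
  have hfib : ∑ c ∈ ((Icc 1 ⌊l ^ (A * j)⌋₊).filter (fun c => Squarefree c ∧ Odd c)).filter
      (fun c => ¬ c < 2 ^ i₀), |Th8 l j e c| / c ≤
      ∑ i ∈ Ico i₀ (A * j + 1), 2 * (C * Λ * (2 * l ^ j) * R * ((A + 3) * j) ^ 4) := by
    rw [← sum_fiberwise_of_maps_to (g := fun c => Nat.log 2 c) (t := Ico i₀ (A * j + 1))]
    · refine sum_le_sum fun i hi => ?_
      rw [mem_Ico] at hi
      refine le_trans ?_ (hf i hi.1 (by omega))
      refine sum_le_sum_of_subset_of_nonneg ?_ fun _ _ _ => by positivity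
      intro c hc
      rw [mem_filter, mem_filter, mem_filter, mem_Icc] at hc
      obtain ⟨⟨⟨⟨hc2, hcM⟩, hcs⟩, hci⟩, hcl⟩ := hc
      rw [mem_filter, mem_Ico]
      refine ⟨⟨?_, ?_⟩, hcs⟩
      · rw [← hcl]; exact Nat.pow_log_le_self 2 (by omega)
      · rw [← hcl]; exact Nat.lt_pow_succ_log_self (by norm_num) _
    · intro c hc
      rw [mem_filter, mem_filter, mem_Icc] at hc
      obtain ⟨⟨⟨hc2, hcM⟩, hcs⟩, hci⟩ := hc
      rw [mem_Ico]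
      constructor
      · exact (Nat.le_log_iff_pow_le (by norm_num) (by omega)).2 (not_lt.1 hci)
      · refine Nat.log_lt_of_lt_pow (by omega) ?_
        have h1 : (c : ℝ) ≤ 2 ^ (A * j) := by
          calc (c : ℝ) ≤ (⌊l ^ (A * j)⌋₊ : ℕ) := by exact_mod_cast hcM
            _ ≤ l ^ (A * j) := Nat.floor_le (by positivity)
            _ ≤ 2 ^ (A * j) := pow_le_pow_left₀ (by linarith) hl2 _
        have h2 : c ≤ 2 ^ (A * j) := by exact_mod_cast h1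
        exact h2.trans_lt (Nat.pow_lt_pow_right (by norm_num) (Nat.lt_succ_self _))
  refine hfib.trans ?_
  rw [sum_const, Nat.card_Ico, nsmul_eq_mul]
  have h1 : ((A * j + 1 - i₀ : ℕ) : ℝ) ≤ (A + 1) * j := by
    have h2 : A * j + 1 - i₀ ≤ (A + 1) * j := by
      have : (A + 1) * j = A * j + j := by ring
      omega
    exact_mod_cast h2
  exact mul_le_mul_of_nonneg_right h1 (by positivity)

/-- the same sum with `Λ` -/
noncomputable def Psi8 (l : ℝ) (j e c : ℕ) : ℝ :=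
  ∑ n ∈ (Ioc ⌊l ^ j⌋₊ ⌊l ^ (j + 1)⌋₊).filter (fun n => n % 4 = e),
    vonMangoldt n * ((jacobiSym n c : ℝ) * (jacobiSym 2 n : ℝ))

theorem jac2_abs (n : ℕ) : |(jacobiSym 2 n : ℝ)| ≤ 1 := by
  rcases jacobiSym.trichotomy 2 n with h | h | h <;> rw [h] <;> simp

theorem jac_mul_abs (n c : ℕ) : |(jacobiSym n c : ℝ) * (jacobiSym 2 n : ℝ)| ≤ 1 := by
  rw [abs_mul]
  exact mul_le_one₀ (jac_abs_le _ _) (abs_nonneg _) (jac2_abs n)

theorem th8_psi {l : ℝ} (hl1 : 1 < l) (hl2 : l ≤ 2) (j e c : ℕ) :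
    |Th8 l j e c - Psi8 l j e c| ≤ 4 * √(l ^ j) * (1 + j * Real.log l) := by
  have hlj : 0 < l ^ j := by positivity
  have hlj1 : 1 ≤ l ^ j := one_le_pow₀ hl1.le
  have h1 : Psi8 l j e c = Th8 l j e c +
      ∑ n ∈ ((Ioc ⌊l ^ j⌋₊ ⌊l ^ (j + 1)⌋₊).filter (fun n => n % 4 = e)).filter
        (fun n => ¬ n.Prime), vonMangoldt n * ((jacobiSym n c : ℝ) * (jacobiSym 2 n : ℝ)) := by
    rw [Psi8, ← sum_filter_add_sum_filter_not _ (fun n => Nat.Prime n)]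
    congr 1
    rw [Th8, filter_filter, Bx]
    have h2 : (Ioc ⌊l ^ j⌋₊ ⌊l ^ (j + 1)⌋₊).filter (fun p => p.Prime ∧ p % 4 = e) =
        (Ioc ⌊l ^ j⌋₊ ⌊l ^ (j + 1)⌋₊).filter (fun a => a % 4 = e ∧ Nat.Prime a) := by
      ext n; simp only [mem_filter, and_comm]
    rw [h2]
    refine sum_congr rfl fun p hp => ?_
    rw [mem_filter] at hp
    rw [ArithmeticFunction.vonMangoldt_apply_prime hp.2.2]
  rw [h1, sub_add_cancel_left, abs_neg]
  have hM : 1 ≤ ⌊l ^ (j + 1)⌋₊ := by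
    rw [Nat.one_le_floor_iff]
    exact one_le_pow₀ hl1.le
  refine (nonprime_le ⌊l ^ (j + 1)⌋₊ hM _ ?_ _ fun n => jac_mul_abs n c).trans ?_
  · intro n hn
    rw [mem_filter, mem_filter, mem_Ioc] at hn
    exact ⟨by omega, hn.1.1.2, hn.2⟩
  · have h3 : ((⌊l ^ (j + 1)⌋₊ : ℕ) : ℝ) ≤ 2 * l ^ j := by
      refine (Nat.floor_le (by positivity)).trans ?_
      rw [pow_succ]; nlinarith
    have hM' : (1 : ℝ) ≤ (⌊l ^ (j + 1)⌋₊ : ℕ) := by exact_mod_cast hM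
    have h4 : √((⌊l ^ (j + 1)⌋₊ : ℕ) : ℝ) ≤ 2 * √(l ^ j) := by
      rw [show (2 : ℝ) * √(l ^ j) = √(4 * l ^ j) by
        rw [Real.sqrt_mul (by norm_num), show (4 : ℝ) = 2 ^ 2 by norm_num,
          Real.sqrt_sq (by norm_num)]]
      exact Real.sqrt_le_sqrt (by linarith)
    have h5 : Real.log ((⌊l ^ (j + 1)⌋₊ : ℕ) : ℝ) ≤ 1 + j * Real.log l := by
      refine (Real.log_le_log (by linarith) h3).trans ?_
      rw [Real.log_mul (by norm_num) hlj.ne', Real.log_pow]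
      have := Real.log_two_lt_d9
      linarith
    have h6 : 0 ≤ Real.log ((⌊l ^ (j + 1)⌋₊ : ℕ) : ℝ) := Real.log_nonneg hM'
    calc 2 * √((⌊l ^ (j + 1)⌋₊ : ℕ) : ℝ) * Real.log ((⌊l ^ (j + 1)⌋₊ : ℕ) : ℝ)
        ≤ 2 * (2 * √(l ^ j)) * (1 + j * Real.log l) := by gcongr
      _ = _ := by ring

/-- combine the two congruences -/
theorem crt_class8 (c : ℕ) (hc : Nat.Coprime 8 c) (r b : ℕ) (hr : r < 8) (hb : b < c)
    (hrc : Nat.Coprime r 8) (hbc : Nat.Coprime b c) :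
    ∃ a : ℕ, Nat.Coprime a (8 * c) ∧ ∀ n : ℕ, (n % c = b ∧ n % 8 = r) ↔ n ≡ a [MOD (8 * c)] := by
  obtain ⟨a, ha1, ha2⟩ := Nat.chineseRemainder hc r b
  refine ⟨a, ?_, fun n => ?_⟩
  · refine Nat.Coprime.mul_right ?_ ?_
    · have := ha1.gcd_eq
      rw [Nat.Coprime]; rw [this]; exact hrc
    · have := ha2.gcd_eq
      rw [Nat.Coprime]; rw [this]; exact hbc
  · rw [← Nat.modEq_and_modEq_iff_modEq_mul hc]
    have e1 : a % 8 = r := by
      have := ha1; rw [Nat.ModEq, Nat.mod_eq_of_lt hr] at this; exact this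
    have e2 : a % c = b := by
      have := ha2; rw [Nat.ModEq, Nat.mod_eq_of_lt hb] at this; exact this
    rw [Nat.ModEq, Nat.ModEq, e1, e2, and_comm]

theorem jac2_mod (n : ℕ) (hn : Odd n) : jacobiSym 2 n = jacobiSym 2 (n % 8) := by
  have h1 : Odd (n % 8) := by
    rw [Nat.odd_iff] at hn ⊢; omega
  rw [jacobiSym.at_two hn, jacobiSym.at_two h1, ZMod.χ₈_nat_eq_if_mod_eight,
    ZMod.χ₈_nat_eq_if_mod_eight, Nat.mod_mod]
  have h2 : n % 8 % 2 = n % 2 := by omega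
  rw [h2]

theorem jac2_pair {e : ℕ} (he : e = 1 ∨ e = 3) : jacobiSym 2 e + jacobiSym 2 (e + 4) = 0 := by
  rcases he with rfl | rfl
  · have h1 : jacobiSym 2 1 = 1 := by norm_num
    have h2 : jacobiSym 2 5 = -1 := by norm_num
    rw [show 1 + 4 = 5 from rfl, h1, h2]; norm_num
  · have h1 : jacobiSym 2 3 = -1 := by norm_num
    have h2 : jacobiSym 2 7 = 1 := by norm_num
    rw [show 3 + 4 = 7 from rfl, h1, h2]; norm_num

theorem psi8_small {l : ℝ} {j e c : ℕ} (he : e = 1 ∨ e = 3) (hc1 : 1 ≤ c)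
    (hodd : Odd c) {W D : ℝ}
    (hP : ∀ a : ℕ, Nat.Coprime a (8 * c) → |PP l j (8 * c) a - W| ≤ D) :
    |Psi8 l j e c| ≤ 2 * c * D := by
  have he4 : e < 4 := by omega
  have hcop : Nat.Coprime 8 c := by
    have h1 : Nat.Coprime 2 c := (Nat.coprime_two_left).2 hodd
    exact Nat.Coprime.pow_left 3 h1
  have hD : 0 ≤ D := by
    have := hP 1 (Nat.coprime_one_left _)
    exact (abs_nonneg _).trans this
  set I := (Ioc ⌊l ^ j⌋₊ ⌊l ^ (j + 1)⌋₊) with hI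
  have h1 : Psi8 l j e c = ∑ x ∈ range c ×ˢ {e, e + 4}, (jacobiSym x.1 c : ℝ) *
      (jacobiSym 2 x.2 : ℝ) * ∑ n ∈ I.filter (fun n => n % c = x.1 ∧ n % 8 = x.2),
        vonMangoldt n := by
    rw [Psi8, ← sum_fiberwise_of_maps_to (g := fun n => (n % c, n % 8))
      (t := range c ×ˢ {e, e + 4})]
    · refine sum_congr rfl fun x hx => ?_
      rw [mem_product, mem_insert, mem_singleton] at hx
      have h2 : (I.filter (fun n => n % 4 = e)).filter (fun n => (n % c, n % 8) = x) =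
          I.filter (fun n => n % c = x.1 ∧ n % 8 = x.2) := by
        rw [filter_filter]
        refine filter_congr fun n _ => ?_
        rw [Prod.ext_iff]
        constructor
        · rintro ⟨_, h⟩; exact h
        · rintro ⟨h3, h4⟩
          exact ⟨by omega, h3, h4⟩
      rw [h2, mul_sum]
      refine sum_congr rfl fun n hn => ?_
      rw [mem_filter] at hn
      have hno : Odd n := by
        rw [Nat.odd_iff]; omega
      have h5 : jacobiSym n c = jacobiSym x.1 c := by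
        refine jacobiSym.mod_left' ?_
        rw [← hn.2.1, Int.natCast_mod, Int.emod_emod]
      have h6 : jacobiSym 2 n = jacobiSym 2 x.2 := by
        rw [jac2_mod n hno, hn.2.2]
      rw [h5, h6]; ring
    · intro n hn
      rw [mem_filter] at hn
      rw [mem_product, mem_range, mem_insert, mem_singleton]
      exact ⟨Nat.mod_lt _ (by omega), by omega⟩
  have h0 : ∑ x ∈ range c ×ˢ ({e, e + 4} : Finset ℕ), (jacobiSym x.1 c : ℝ) *
      (jacobiSym 2 x.2 : ℝ) = 0 := by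
    have h9 := sum_product' (range c) ({e, e + 4} : Finset ℕ)
      (fun x y => (jacobiSym x c : ℝ) * (jacobiSym 2 y : ℝ))
    rw [h9, ← sum_mul_sum, sum_pair (by omega)]
    have h3 : ((jacobiSym 2 e : ℝ) + (jacobiSym 2 (e + 4) : ℝ)) = 0 := by
      exact_mod_cast jac2_pair he
    rw [h3, mul_zero]
  have h2 : Psi8 l j e c = ∑ x ∈ range c ×ˢ {e, e + 4}, (jacobiSym x.1 c : ℝ) *
      (jacobiSym 2 x.2 : ℝ) * ((∑ n ∈ I.filter (fun n => n % c = x.1 ∧ n % 8 = x.2),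
        vonMangoldt n) - W) := by
    rw [h1]
    simp only [mul_sub]
    rw [sum_sub_distrib, ← sum_mul, h0, zero_mul, sub_zero]
  rw [h2]
  refine (abs_sum_le_sum_abs _ _).trans ?_
  have h4 : ∀ x ∈ range c ×ˢ ({e, e + 4} : Finset ℕ), |(jacobiSym x.1 c : ℝ) *
      (jacobiSym 2 x.2 : ℝ) * ((∑ n ∈ I.filter (fun n => n % c = x.1 ∧ n % 8 = x.2),
        vonMangoldt n) - W)| ≤ D := by
    rintro ⟨b, r⟩ hx
    rw [mem_product, mem_range, mem_insert, mem_singleton] at hx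
    obtain ⟨hb, hr⟩ := hx
    have hb' : b < c := hb
    have hr' : r = e ∨ r = e + 4 := hr
    have hr8 : r < 8 := by omega
    have hrc : Nat.Coprime r 8 := by
      have h7 : Odd r := by rw [Nat.odd_iff]; omega
      have h8 : Nat.Coprime 2 r := (Nat.coprime_two_left).2 h7
      exact (Nat.Coprime.pow_left 3 h8).symm
    show |(jacobiSym b c : ℝ) * (jacobiSym 2 r : ℝ) *
      ((∑ n ∈ I.filter (fun n => n % c = b ∧ n % 8 = r), vonMangoldt n) - W)| ≤ D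
    by_cases hbc : Nat.Coprime b c
    · obtain ⟨a, ha, hiff⟩ := crt_class8 c hcop r b hr8 hb' hrc hbc
      have h5 : I.filter (fun n => n % c = b ∧ n % 8 = r) =
          I.filter (fun n => n ≡ a [MOD (8 * c)]) :=
        filter_congr fun n _ => hiff n
      rw [abs_mul, abs_mul, h5]
      have h6 : |(jacobiSym b c : ℝ)| * |(jacobiSym 2 r : ℝ)| ≤ 1 :=
        mul_le_one₀ (jac_abs_le _ _) (abs_nonneg _) (jac2_abs r)
      refine (mul_le_of_le_one_left (abs_nonneg _) h6).trans ?_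
      exact hP a ha
    · have h6 : jacobiSym b c = 0 := by
        rw [jacobiSym.eq_zero_iff]
        exact ⟨by omega, by rwa [Int.gcd_natCast_natCast]⟩
      rw [h6]; simp [hD]
  refine (sum_le_sum h4).trans ?_
  rw [sum_const, card_product, card_range, card_pair (by omega), nsmul_eq_mul]
  push_cast
  linarith

theorem small_sum8 {l : ℝ} (hl1 : 1 < l) (hl2 : l ≤ 2) (A j e i₀ : ℕ)
    (hj : 1 ≤ j) (he : e = 1 ∨ e = 3)
    (hpsi : ∀ q a : ℕ, 1 ≤ q → (q : ℝ) ≤ (j * Real.log l) ^ 43 → Nat.Coprime a q →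
      |PP l j q a - (l - 1) * l ^ j / (Nat.totient q : ℝ)| ≤ 3 * l ^ j / (j * Real.log l) ^ 43)
    (hi : (8 : ℝ) * 2 ^ i₀ ≤ (j * Real.log l) ^ 43) :
    ∑ c ∈ ((Icc 1 ⌊l ^ (A * j)⌋₊).filter (fun c => Squarefree c ∧ Odd c)).filter
      (fun c => c < 2 ^ i₀), |Th8 l j e c| / c ≤
      2 ^ i₀ * (2 * (3 * l ^ j / (j * Real.log l) ^ 43) +
        4 * √(l ^ j) * (1 + j * Real.log l)) := by
  have hlj : 0 < l ^ j := by positivity
  have hg : 0 < Real.log l := Real.log_pos hl1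
  have hjR : (1 : ℝ) ≤ j := by exact_mod_cast hj
  have hE : 0 ≤ 4 * √(l ^ j) * (1 + j * Real.log l) := by positivity
  have hD : 0 ≤ 3 * l ^ j / (j * Real.log l) ^ 43 := by positivity
  have hone : ∀ c ∈ ((Icc 1 ⌊l ^ (A * j)⌋₊).filter (fun c => Squarefree c ∧ Odd c)).filter
      (fun c => c < 2 ^ i₀), |Th8 l j e c| / c ≤
      2 * (3 * l ^ j / (j * Real.log l) ^ 43) + 4 * √(l ^ j) * (1 + j * Real.log l) := by
    intro c hc
    rw [mem_filter, mem_filter, mem_Icc] at hc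
    obtain ⟨⟨⟨hc1, hcM⟩, hcs, hco⟩, hci⟩ := hc
    have hcR : (1 : ℝ) ≤ c := by exact_mod_cast hc1
    have hc4 : ((8 * c : ℕ) : ℝ) ≤ (j * Real.log l) ^ 43 := by
      refine le_trans ?_ hi
      have : c ≤ 2 ^ i₀ := hci.le
      exact_mod_cast Nat.mul_le_mul_left 8 this
    have h1 := psi8_small (l := l) (j := j) he hc1 hco
      (W := (l - 1) * l ^ j / (Nat.totient (8 * c) : ℝ))
      (D := 3 * l ^ j / (j * Real.log l) ^ 43)
      (fun a ha => hpsi (8 * c) a (by omega) hc4 ha)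
    have h2 := th8_psi hl1 hl2 j e c
    have h3 : |Th8 l j e c| ≤ 2 * c * (3 * l ^ j / (j * Real.log l) ^ 43) +
        4 * √(l ^ j) * (1 + j * Real.log l) := by
      have h4 := abs_sub_abs_le_abs_sub (Th8 l j e c) (Psi8 l j e c)
      linarith
    rw [div_le_iff₀ (by linarith)]
    refine h3.trans ?_
    nlinarith
  refine (sum_le_card_nsmul _ _ _ hone).trans ?_
  rw [nsmul_eq_mul]
  refine mul_le_mul_of_nonneg_right ?_ (by positivity)
  have h5 : (((Icc 1 ⌊l ^ (A * j)⌋₊).filter (fun c => Squarefree c ∧ Odd c)).filter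
      (fun c => c < 2 ^ i₀)).card ≤ 2 ^ i₀ := by
    have h6 : ((Icc 1 ⌊l ^ (A * j)⌋₊).filter (fun c => Squarefree c ∧ Odd c)).filter
        (fun c => c < 2 ^ i₀) ⊆ range (2 ^ i₀) := by
      intro c hc
      rw [mem_filter] at hc
      exact mem_range.2 hc.2
    have h7 := card_le_card h6
    rwa [card_range] at h7
  exact_mod_cast h5

/-- (C1), from the inputs -/
theorem stmtChar8' (hsw : SW) (h1 : StmtPS1) (h2 : StmtPS2) (hBL : StmtBL) : StmtChar8 := by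
  intro l hl1 hl2 A ε hε
  obtain ⟨C, hC, hblk⟩ := block h1 h2 hBL
  obtain ⟨j₁, hj₁, hpsi⟩ := psi_int hsw hl1 hl2 43 (by norm_num)
  have hg : 0 < Real.log l := Real.log_pos hl1
  set g := Real.log l with hgdef
  set C' : ℝ := 8 * C * (A + 1) * (A + 3) ^ 4 / g ^ 5 with hC'
  have hC'0 : 0 < C' := by positivity
  have hδ0 : 0 < min (1 / 16 : ℝ) (ε / (28 + 3 * C')) := by positivity
  have hδ1 : min (1 / 16 : ℝ) (ε / (28 + 3 * C')) ≤ 1 / 16 := min_le_left _ _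
  have hδ2 : min (1 / 16 : ℝ) (ε / (28 + 3 * C')) ≤ ε / (28 + 3 * C') := min_le_right _ _
  set δ := min (1 / 16 : ℝ) (ε / (28 + 3 * C')) with hδ
  obtain ⟨j₂, h2'⟩ := grow hl1 43 (s := 1 / 2) (δ := δ) (by norm_num) hδ0
  obtain ⟨j₃, h3'⟩ := grow hl1 6 (s := 1 / 6) (δ := δ) (by norm_num) hδ0
  refine ⟨max j₁ (max j₂ j₃), fun j hj e he => ?_⟩
  have hjj₁ : j₁ ≤ j := (le_max_left _ _).trans hj
  obtain ⟨a1, a2⟩ := h2' j (((le_max_left _ _).trans (le_max_right _ _)).trans hj)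
  obtain ⟨-, a3⟩ := h3' j (((le_max_right _ _).trans (le_max_right _ _)).trans hj)
  have hj1 : 1 ≤ j := hj₁.trans hjj₁
  have hjR : (1 : ℝ) ≤ j := by exact_mod_cast hj1
  have hlj : 0 < l ^ j := by positivity
  have hlj1 : 1 ≤ l ^ j := one_le_pow₀ hl1.le
  have hpsi' := hpsi j hjj₁
  rw [← sqrt_L hl1] at a2
  have hexp := exp_L hl1 j
  rw [← hgdef] at a1 a2 a3 hexp
  have hsm := small_sum8 hl1 hl2 A j e (Nat.log 2 ⌊((j : ℝ) * g) ^ 42⌋₊ + 1) hj1 he hpsi'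
  have hla := large_sum8 hC hblk hl1 hl2 A j e (Nat.log 2 ⌊((j : ℝ) * g) ^ 42⌋₊ + 1) hj1 he
    (Λ := 2 * (j * g)) (R := 1 / (j * g) ^ 7 + 2 * Real.exp (-(1 / 6 * (j * g))))
  rw [← hgdef] at hsm
  have hjL : (j : ℝ) = (j * g) / g := by field_simp
  set L := (j : ℝ) * g with hL
  have hL8 : 16 ≤ L := by
    refine le_trans ?_ a1
    rw [le_div_iff₀ hδ0]; linarith
  have hL0 : 0 < L := by linarith
  have hLinv : 1 / L ≤ δ := by
    rw [div_le_iff₀ hL0]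
    rw [div_le_iff₀ hδ0] at a1
    linarith
  set i₀ := Nat.log 2 ⌊L ^ 42⌋₊ + 1 with hi₀
  have hfl : 1 ≤ ⌊L ^ 42⌋₊ := by
    rw [Nat.one_le_floor_iff]
    exact one_le_pow₀ (by linarith)
  have hi0a : L ^ 42 ≤ 2 ^ i₀ := by
    have b1 : ⌊L ^ 42⌋₊ < 2 ^ i₀ := Nat.lt_pow_succ_log_self (by norm_num) _
    have b2 : ((⌊L ^ 42⌋₊ : ℕ) : ℝ) + 1 ≤ 2 ^ i₀ := by exact_mod_cast b1
    exact (Nat.lt_floor_add_one _).le.trans b2
  have hi0b : (2 : ℝ) ^ i₀ ≤ 2 * L ^ 42 := by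
    have b1 : 2 ^ Nat.log 2 ⌊L ^ 42⌋₊ ≤ ⌊L ^ 42⌋₊ := Nat.pow_log_le_self 2 (by omega)
    have b2 : (2 : ℝ) ^ Nat.log 2 ⌊L ^ 42⌋₊ ≤ (⌊L ^ 42⌋₊ : ℕ) := by exact_mod_cast b1
    have b3 := Nat.floor_le (by positivity : 0 ≤ L ^ 42)
    rw [hi₀, pow_succ]
    linarith
  -- small conductors
  have hs := hsm (by
    calc (8 : ℝ) * 2 ^ i₀ ≤ 8 * (2 * L ^ 42) := by gcongr
      _ = 16 * L ^ 42 := by ring
      _ ≤ L * L ^ 42 := by gcongr
      _ = L ^ 43 := by ring)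
  have hs' : (2 : ℝ) ^ i₀ * (2 * (3 * l ^ j / L ^ 43) + 4 * √(l ^ j) * (1 + L)) ≤
      28 * δ * l ^ j := by
    calc (2 : ℝ) ^ i₀ * (2 * (3 * l ^ j / L ^ 43) + 4 * √(l ^ j) * (1 + L))
        ≤ 2 * L ^ 42 * (2 * (3 * l ^ j / L ^ 43) + 4 * √(l ^ j) * (2 * L)) := by
          gcongr; linarith
      _ = 12 * (1 / L) * l ^ j + 16 * L ^ 43 * √(l ^ j) := by field_simp; ring
      _ ≤ 12 * δ * l ^ j + 16 * (δ * √(l ^ j)) * √(l ^ j) := by gcongr
      _ = 12 * δ * l ^ j + 16 * δ * (√(l ^ j) * √(l ^ j)) := by ring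
      _ = 28 * δ * l ^ j := by rw [Real.mul_self_sqrt hlj.le]; ring
  -- large conductors
  have hlog : ∀ p ∈ Bx l j e, |Real.log p * (jacobiSym 2 p : ℝ)| ≤ 2 * L := by
    intro p hp
    obtain ⟨b1, b2, b3, b4⟩ := mem_Bx hp
    have b5 : (1 : ℝ) ≤ p := by exact_mod_cast b1.one_lt.le
    rw [abs_mul]
    refine (mul_le_of_le_one_right (abs_nonneg _) (jac2_abs p)).trans ?_
    rw [abs_of_nonneg (Real.log_nonneg b5)]
    have b6 : l ^ (j + 1) ≤ 2 * l ^ j := by rw [pow_succ]; nlinarith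
    refine (Real.log_le_log (by linarith) (b3.trans b6)).trans ?_
    rw [Real.log_mul (by norm_num) hlj.ne', Real.log_pow, ← hgdef, ← hL]
    have := Real.log_two_lt_d9
    linarith
  have hla' := hla (by positivity) hlog (by
    intro i k hi hk
    have c1 : (2 : ℝ) ^ (-(((min i k : ℕ) : ℝ) / 6)) ≤ (L ^ 42) ^ (-(1 / 6 : ℝ)) +
        (l ^ j / 2) ^ (-(1 / 6 : ℝ)) := by
      rcases le_total i k with h | h
      · rw [min_eq_left h]
        have := two_rpow_le (by positivity) hi0a hi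
        have h' : 0 ≤ (l ^ j / 2) ^ (-(1 / 6 : ℝ)) := by positivity
        linarith
      · rw [min_eq_right h]
        have h3 : l ^ j / 2 ≤ 2 ^ Nat.log 2 ⌊l ^ j⌋₊ := by
          have b1 : ⌊l ^ j⌋₊ < 2 ^ (Nat.log 2 ⌊l ^ j⌋₊ + 1) :=
            Nat.lt_pow_succ_log_self (by norm_num) _
          have b2 : ((⌊l ^ j⌋₊ : ℕ) : ℝ) + 1 ≤ 2 ^ (Nat.log 2 ⌊l ^ j⌋₊ + 1) := by
            exact_mod_cast b1
          rw [pow_succ] at b2
          have b3 := Nat.lt_floor_add_one (l ^ j)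
          linarith
        have := two_rpow_le (by positivity) h3 hk
        have h' : 0 ≤ (L ^ 42) ^ (-(1 / 6 : ℝ)) := by positivity
        linarith
    have c2 : (L ^ 42) ^ (-(1 / 6 : ℝ)) = 1 / L ^ 7 := by
      rw [← Real.rpow_natCast L 42, ← Real.rpow_mul hL0.le]
      have : ((42 : ℕ) : ℝ) * (-(1 / 6)) = -((7 : ℕ) : ℝ) := by norm_num
      rw [this, Real.rpow_neg hL0.le, Real.rpow_natCast, one_div]
    have c3 : (l ^ j / 2) ^ (-(1 / 6 : ℝ)) ≤ 2 * Real.exp (-(1 / 6 * L)) := by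
      rw [← hexp, div_eq_mul_inv, Real.mul_rpow (by positivity) (by norm_num), ← Real.exp_mul]
      have c4 : ((2 : ℝ)⁻¹) ^ (-(1 / 6 : ℝ)) ≤ 2 := by
        rw [Real.rpow_neg (by norm_num), Real.inv_rpow (by norm_num), inv_inv]
        calc (2 : ℝ) ^ (1 / 6 : ℝ) ≤ 2 ^ (1 : ℝ) :=
              Real.rpow_le_rpow_of_exponent_le (by norm_num) (by norm_num)
          _ = 2 := by simp
      have c5 : L * (-(1 / 6)) = -(1 / 6 * L) := by ring
      rw [c5]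
      have c6 := Real.exp_pos (-(1 / 6 * L))
      nlinarith
    linarith)
  have hl' : ((A + 1) * (j : ℝ)) * (2 * (C * (2 * L) * (2 * l ^ j) *
      (1 / L ^ 7 + 2 * Real.exp (-(1 / 6 * L))) * ((A + 3) * j) ^ 4)) ≤ 3 * C' * δ * l ^ j := by
    have d1 : L ^ 6 * Real.exp (-(1 / 6 * L)) ≤ δ := by
      rw [Real.exp_neg, ← div_eq_mul_inv, div_le_iff₀ (Real.exp_pos _)]
      exact a3
    calc ((A + 1) * (j : ℝ)) * (2 * (C * (2 * L) * (2 * l ^ j) *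
          (1 / L ^ 7 + 2 * Real.exp (-(1 / 6 * L))) * ((A + 3) * j) ^ 4))
        = 8 * C * (A + 1) * (A + 3) ^ 4 * (j : ℝ) ^ 5 * L * l ^ j *
          (1 / L ^ 7 + 2 * Real.exp (-(1 / 6 * L))) := by ring
      _ = 8 * C * (A + 1) * (A + 3) ^ 4 * (L / g) ^ 5 * L * l ^ j *
          (1 / L ^ 7 + 2 * Real.exp (-(1 / 6 * L))) := by rw [← hjL]
      _ = C' * l ^ j * (1 / L + 2 * (L ^ 6 * Real.exp (-(1 / 6 * L)))) := by
          rw [hC']; field_simp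
      _ ≤ C' * l ^ j * (δ + 2 * δ) := by gcongr
      _ = 3 * C' * δ * l ^ j := by ring
  rw [← sum_filter_add_sum_filter_not _ (fun c => c < 2 ^ i₀)]
  calc _ ≤ 28 * δ * l ^ j + 3 * C' * δ * l ^ j := add_le_add (hs.trans hs') (hla'.trans hl')
    _ = (28 + 3 * C') * δ * l ^ j := by ring
    _ ≤ (28 + 3 * C') * (ε / (28 + 3 * C')) * l ^ j := by gcongr
    _ = ε * l ^ j := by field_simp

/-- (C1) -/
theorem stmtChar8 : StmtChar8 :=
  stmtChar8' Vale.Agent.P017.R2.H217.sw Vale.Agent.P017.R2.H285.stmtPS1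
    Vale.Agent.P017.R2.H285.stmtPS2 Vale.Agent.P017.R2.H918.stmtBL

end Vale.Agent.P017.R4.H68
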